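import Vale.Agent.P302.Main

namespace Vale.Agent.Results.P302.Disproof

open Vale.Agent.P302

theorem result :
    (¬ ∀ (n : ℕ) (a : Fin n → ℚ), (∀ i, 0 < a i ∧ a i ≤ 1) → (OPT a : ℤ) ≤ ⌈LP a⌉ + 1) ∧
    ∀ C : ℕ, ∃ (n : ℕ) (a : Fin n → ℚ), (∀ i, 1 / 4 < a i ∧ a i < 1 / 2) ∧ LP a + C ≤ OPT a := by
  refine ⟨fun h => ?_, gap⟩
  obtain ⟨n, a, h1, h2⟩ := gap 3
  have h3 : ((OPT a : ℤ) : ℝ) ≤ ((⌈LP a⌉ + 1 : ℤ) : ℝ) :=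
    Int.cast_le.2 (h n a fun i => ⟨by linarith [(h1 i).1], by linarith [(h1 i).2]⟩)
  have h4 := Int.ceil_lt_add_one (LP a)
  push_cast at h2 h3
  linarith

end Vale.Agent.Results.P302.Disproof
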